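import Vale.Agent.P132.TypeThree.Band
import Vale.Agent.P132.Integral

/-!
P096, cores: functions of `d + log Δ` for a real parameter `d`, and the condition of KMS for them
on the commutant, with bounded compactly supported functions of `log Δ` only.
-/

open scoped InnerProductSpace FourierTransform
open MeasureTheory Filter Topology Set

namespace Vale.Agent.P096.Three.Core.Semi

open Vale.Agent.P132.Tomita Vale.Agent.P132.TypeThree Vale.Agent.P104.Continuous

variable {H : Type} [NormedAddCommGroup H] [InnerProductSpace ℂ H] [CompleteSpace H]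
variable {M : VonNeumannAlgebra H} {η : H} {R : H →L[ℂ] H} {J : H ≃ₗᵢ⋆[ℂ] H}
  {U : ℝ → (H →L[ℂ] H)}

theorem cut_mul (a b : ℝ → ℝ) (r : ℝ) : cut (fun l => a l * b l) r = cut a r * cut b r := by
  by_cases h : 0 < r ∧ r < 2 <;> simp [cut, h]

theorem cut_two_sub (b : ℝ → ℝ) (r : ℝ) : cut b (2 - r) = cut (fun l => b (-l)) r := by
  have hl : lg (2 - r) = -lg r := by simp only [lg, sub_sub_cancel]; ring
  by_cases h : 0 < r ∧ r < 2
  · rw [cut, cut, if_pos h, if_pos ⟨by linarith [h.2], by linarith [h.1]⟩, hl]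
  · rw [cut, cut, if_neg h, if_neg fun h' => h ⟨by linarith [h'.2], by linarith [h'.1]⟩]

theorem abs_cut_sub_le {a b : ℝ → ℝ} {ε : ℝ} (hε : 0 ≤ ε) (h : ∀ l, |a l - b l| ≤ ε) (r : ℝ) :
    |cut a r - cut b r| ≤ ε := by
  by_cases hr : 0 < r ∧ r < 2 <;> simp [cut, hr, h, hε]

theorem abs_cut_le {a : ℝ → ℝ} {C : ℝ} (hC : 0 ≤ C) (h : ∀ l, |a l| ≤ C) (r : ℝ) :
    |cut a r| ≤ C := by
  by_cases hr : 0 < r ∧ r < 2 <;> simp [cut, hr, h, hC]

theorem hcs_translate {φ : ℝ → ℝ} (hc : HasCompactSupport φ) (d : ℝ) :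
    HasCompactSupport fun l => φ (d + l) :=
  hc.comp_homeomorph (Homeomorph.addLeft d)

theorem hcs_neg_mul {φ : ℝ → ℝ} (hc : HasCompactSupport φ) (g : ℝ → ℝ) :
    HasCompactSupport fun l => φ (-l) * g l :=
  (hc.comp_homeomorph (Homeomorph.neg ℝ)).mul_right

/-! ### The functions `φ (d + log Δ)` -/

/-- `φ (d + log Δ)`. -/
noncomputable def opA (R : H →L[ℂ] H) (φ : ℝ → ℝ) (d : ℝ) : H →L[ℂ] H :=
  cfc (cut fun l => φ (d + l)) R

theorem opA_selfAdjoint (φ : ℝ → ℝ) (d : ℝ) : IsSelfAdjoint (opA R φ d) := cfc_predicate _ _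

theorem norm_opA_le {φ : ℝ → ℝ} {C : ℝ} (hC : 0 ≤ C) (h : ∀ l, |φ l| ≤ C) (d : ℝ) :
    ‖opA R φ d‖ ≤ C :=
  norm_cfc_le hC fun r _ => abs_cut_le hC (fun l => h (d + l)) r

theorem continuous_cut_translate {φ : ℝ → ℝ} (hφ : Continuous φ) (hc : HasCompactSupport φ)
    (d : ℝ) : Continuous (cut fun l => φ (d + l)) :=
  continuous_cut (hφ.comp (continuous_const.add continuous_id)) (hcs_translate hc d)

theorem opA_mul {φ ψ : ℝ → ℝ} (hφ : Continuous φ) (hc : HasCompactSupport φ) (hψ : Continuous ψ)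
    (hc' : HasCompactSupport ψ) (d : ℝ) :
    opA R φ d * opA R ψ d = opA R (fun l => φ l * ψ l) d := by
  rw [opA, opA, opA, ← cfc_mul _ _ R (continuous_cut_translate hφ hc d).continuousOn
    (continuous_cut_translate hψ hc' d).continuousOn]
  exact cfc_congr fun r _ => (cut_mul _ _ r).symm

theorem opA_eta (hm : Modular M η R J U) {φ : ℝ → ℝ} (hφ : Continuous φ)
    (hc : HasCompactSupport φ) (d : ℝ) : opA R φ d η = φ d • η := by
  rw [opA, cfc_fixed hm.R_sa hm.R_spec hm.R_xi (continuous_cut_translate hφ hc d)]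
  congr 1
  norm_num [cut, lg]

theorem exists_uniform {φ : ℝ → ℝ} (hφ : Continuous φ) (hc : HasCompactSupport φ) {ε : ℝ}
    (hε : 0 < ε) :
    ∃ δ > 0, ∀ d d' : ℝ, dist d d' < δ → ∀ l, |φ (d + l) - φ (d' + l)| ≤ ε := by
  obtain ⟨δ, hδ, h⟩ :=
    Metric.uniformContinuous_iff.1 (hc.uniformContinuous_of_continuous hφ) ε hε
  exact ⟨δ, hδ, fun d d' hd l => (h (by rwa [dist_add_right])).le⟩

theorem continuous_opA {φ : ℝ → ℝ} (hφ : Continuous φ) (hc : HasCompactSupport φ) :
    Continuous (opA R φ) := by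
  refine Metric.continuous_iff.2 fun d ε hε => ?_
  obtain ⟨δ, hδ, h⟩ := exists_uniform hφ hc (half_pos hε)
  refine ⟨δ, hδ, fun d' hd => lt_of_le_of_lt ?_ (half_lt_self hε)⟩
  rw [dist_eq_norm, opA, opA, ← cfc_sub _ _ R (continuous_cut_translate hφ hc d').continuousOn
    (continuous_cut_translate hφ hc d).continuousOn]
  exact norm_cfc_le (half_pos hε).le fun r _ => abs_cut_sub_le (half_pos hε).le (h d' d hd) r

theorem continuous_cut_joint {φ : ℝ → ℝ} (hφ : Continuous φ) (hc : HasCompactSupport φ) :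
    Continuous fun p : ℝ × ℝ => cut (fun l => φ (p.1 + l)) p.2 := by
  refine Metric.continuous_iff.2 fun p ε hε => ?_
  obtain ⟨δ, hδ, h⟩ := exists_uniform hφ hc (half_pos hε)
  obtain ⟨δ', hδ', h'⟩ :=
    Metric.continuous_iff.1 (continuous_cut_translate hφ hc p.1) p.2 (ε / 2) (half_pos hε)
  refine ⟨min δ δ', lt_min hδ hδ', fun q hq => ?_⟩
  rw [Prod.dist_eq, max_lt_iff] at hq
  have e1 := abs_cut_sub_le (half_pos hε).le (h q.1 p.1 (hq.1.trans_le (min_le_left _ _))) q.2
  have e2 := h' q.2 (hq.2.trans_le (min_le_right _ _))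
  calc dist (cut (fun l => φ (q.1 + l)) q.2) (cut (fun l => φ (p.1 + l)) p.2)
      ≤ dist (cut (fun l => φ (q.1 + l)) q.2) (cut (fun l => φ (p.1 + l)) q.2)
        + dist (cut (fun l => φ (p.1 + l)) q.2) (cut (fun l => φ (p.1 + l)) p.2) :=
          dist_triangle _ _ _
    _ < ε := by rw [Real.dist_eq] at e2 ⊢; rw [Real.dist_eq]; linarith

/-! ### The condition of KMS on the commutant -/

theorem commute_cfc_R (g : ℝ → ℝ) : Commute (cfc g R) R := (Commute.refl R).cfc_real g

/-- `b(log Δ) J x* η = (b exp (·/2))(log Δ) x η`. -/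
theorem cut_star (hm : Modular M η R J U) {x : H →L[ℂ] H} (hx : x ∈ M) {b b' : ℝ → ℝ}
    (hb : Continuous b) (hc : HasCompactSupport b) (hb' : Continuous b')
    (hc' : HasCompactSupport b') (he : ∀ l, b' l = b l * Real.exp (l / 2)) :
    cfc (cut b) R (J (star x η)) = cfc (cut b') R (x η) := by
  have hR : ∀ v, R (cfc (cut b) R v) = cfc (cut b) R (R v) := fun v =>
    (DFunLike.congr_fun (commute_cfc_R (R := R) (cut b)).eq v).symm
  have hT : ∀ v, opT R (cfc (cut b) R v) = cfc (cut b) R (opT R v) := fun v =>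
    DFunLike.congr_fun ((commute_cfc_R (R := R) (cut b)).symm.cfc_real fT).eq v
  refine sub_eq_zero.1 (opT_injective hm ?_)
  rw [map_sub, sub_eq_zero, hT, ← graph_one hm hx, ← two_sub_cut hm hb hc hb' hc' he, map_sub,
    map_smul, hR]

/-- `b(log Δ) y* η = J (b(-·) exp (-·/2))(log Δ) y η` for `y` in the commutant. -/
theorem cut_star_commutant (hm : Modular M η R J U) {y : H →L[ℂ] H} (hy : y ∈ M.commutant)
    {b : ℝ → ℝ} (hb : Continuous b) (hc : HasCompactSupport b) :
    cfc (cut b) R (star y η) =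
      J (cfc (cut fun l => b (-l) * Real.exp (-l / 2)) R (y η)) := by
  have hx := hm.conj_mem' y hy
  have e1 : J (star (conjBy J y) η) = star y η := by
    rw [star_conjBy hm.J_J, conjBy_apply, hm.J_xi, hm.J_J]
  have e2 : conjBy J y η = J (y η) := by rw [conjBy_apply, hm.J_xi]
  have hb' : Continuous fun l => b l * Real.exp (l / 2) := by fun_prop
  rw [← e1, cut_star hm hx hb hc hb' hc.mul_right (fun l => rfl), e2,
    VP132.J_cfc hm (continuous_cut (by fun_prop) (hcs_neg_mul hc _))]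
  congr 2
  funext r
  rw [cut_two_sub]
  simp only [neg_neg]

/-- The condition of KMS on the commutant. -/
theorem kms_cut (hm : Modular M η R J U) {y₁ y₂ : H →L[ℂ] H} (h₁ : y₁ ∈ M.commutant)
    (h₂ : y₂ ∈ M.commutant) {g : ℝ → ℝ} (hg : Continuous g) (hgc : HasCompactSupport g) :
    ⟪star y₂ η, cfc (cut g) R (star y₁ η)⟫_ℂ =
      ⟪y₁ η, cfc (cut fun l => g (-l) * Real.exp (-l)) R (y₂ η)⟫_ℂ := by
  obtain ⟨χ, hχ1, -, hχc, -⟩ := exists_continuous_one_zero_of_isCompact hgc.isCompact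
    (isClosed_empty (X := ℝ)) (disjoint_empty _)
  have hgχ : ∀ l, g l = χ l * g l := fun l => by
    by_cases hl : l ∈ tsupport g
    · rw [hχ1 hl]; simp
    · simp [image_eq_zero_of_notMem_tsupport hl]
  have hg' : Continuous fun l => g (-l) * Real.exp (-l / 2) := by fun_prop
  have hχ' : Continuous fun l => χ (-l) * Real.exp (-l / 2) := by fun_prop
  calc ⟪star y₂ η, cfc (cut g) R (star y₁ η)⟫_ℂ
      = ⟪cfc (cut χ) R (star y₂ η), cfc (cut g) R (star y₁ η)⟫_ℂ := by
        rw [inner_proj (cfc_predicate _ _), ← apply_mul (cfc (cut χ) R), ← cfc_mul _ _ R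
          (continuous_cut χ.continuous hχc).continuousOn (continuous_cut hg hgc).continuousOn]
        congr 2
        exact cfc_congr fun r _ => by rw [← cut_mul, ← funext hgχ]
    _ = ⟪cfc (cut fun l => g (-l) * Real.exp (-l / 2)) R (y₁ η),
          cfc (cut fun l => χ (-l) * Real.exp (-l / 2)) R (y₂ η)⟫_ℂ := by
        rw [cut_star_commutant hm h₂ χ.continuous hχc, cut_star_commutant hm h₁ hg hgc,
          inner_map_map']
    _ = _ := by
        rw [inner_proj (cfc_predicate _ _), ← apply_mul, ← cfc_mul _ _ R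
          (continuous_cut hg' (hcs_neg_mul hgc _)).continuousOn
          (continuous_cut hχ' (hcs_neg_mul hχc _)).continuousOn]
        congr 2
        refine cfc_congr fun r _ => ?_
        rw [← cut_mul]
        congr 1
        funext l
        rw [show -l = -l / 2 + -l / 2 by ring, Real.exp_add]
        conv_rhs => rw [show -l / 2 + -l / 2 = -l by ring, hgχ (-l)]
        ring

/-! ### Integrals -/

/-- The superposition of the translates of `φ` by a weight. -/
noncomputable def mix (w φ : ℝ → ℝ) (l : ℝ) : ℝ := ∫ d, w d * φ (d + l)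

theorem continuous_mix {w φ : ℝ → ℝ} (hw : Continuous w) (hwc : HasCompactSupport w)
    (hφ : Continuous φ) (hc : HasCompactSupport φ) : Continuous (mix w φ) := by
  obtain ⟨C, hC⟩ := hφ.bounded_above_of_compact_support hc
  refine continuous_of_dominated (bound := fun d => ‖w d‖ * C)
    (fun l => (show Continuous fun d => w d * φ (d + l) by fun_prop).aestronglyMeasurable)
    (fun l => Eventually.of_forall fun d => ?_)
    ((hw.integrable_of_hasCompactSupport hwc).norm.mul_const C)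
    (Eventually.of_forall fun d => by fun_prop)
  rw [norm_mul]
  exact mul_le_mul_of_nonneg_left (hC _) (norm_nonneg _)

theorem hasCompactSupport_mix {w φ : ℝ → ℝ} (hwc : HasCompactSupport w)
    (hc : HasCompactSupport φ) : HasCompactSupport (mix w φ) := by
  obtain ⟨A, hA⟩ := hwc.isCompact.isBounded.subset_closedBall 0
  obtain ⟨B, hB⟩ := hc.isCompact.isBounded.subset_closedBall 0
  refine HasCompactSupport.intro (isCompact_closedBall (0 : ℝ) (A + B)) fun l hl => ?_
  refine integral_eq_zero_of_ae (Eventually.of_forall fun d => ?_)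
  show w d * φ (d + l) = 0
  by_contra hne
  obtain ⟨h1, h2⟩ := mul_ne_zero_iff.1 hne
  have a1 := hA (subset_tsupport w h1)
  have a2 := hB (subset_tsupport φ h2)
  rw [Metric.mem_closedBall, Real.dist_0_eq_abs, abs_le] at a1 a2
  refine hl ?_
  rw [Metric.mem_closedBall, Real.dist_0_eq_abs, abs_le]
  constructor <;> linarith [a1.1, a1.2, a2.1, a2.2]

theorem inner_cfc_mix (hm : Modular M η R J U) {w φ : ℝ → ℝ} (hw : Continuous w)
    (hwc : HasCompactSupport w) (hφ : Continuous φ) (hc : HasCompactSupport φ) (u v : H) :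
    ∫ d, (w d : ℂ) * ⟪u, opA R φ d v⟫_ℂ = ⟪u, cfc (cut (mix w φ)) R v⟫_ℂ := by
  obtain ⟨C, hC⟩ := hφ.bounded_above_of_compact_support hc
  have hC0 : 0 ≤ C := (norm_nonneg _).trans (hC 0)
  obtain ⟨f, hf⟩ : ∃ f : ℝ → ℝ → ℝ, f = fun d r => w d * cut (fun l => φ (d + l)) r := ⟨_, rfl⟩
  have hfc : Continuous (Function.uncurry f) := by
    rw [hf]
    exact (hw.comp continuous_fst).mul (continuous_cut_joint hφ hc)
  have hb : ∀ d, ∀ r ∈ spectrum ℝ R, ‖f d r‖ ≤ ‖w d‖ * C := fun d r _ => by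
    rw [hf, norm_mul]
    exact mul_le_mul_of_nonneg_left (abs_cut_le hC0 (fun l => hC (d + l)) r) (norm_nonneg _)
  have hw1 := (hw.integrable_of_hasCompactSupport (μ := volume) hwc).norm.mul_const C
  have hop : ∀ d, cfc (f d) R = w d • opA R φ d := fun d => by
    rw [hf, opA, ← cfc_smul (w d) _ R (continuous_cut_translate hφ hc d).continuousOn]
    rfl
  have hint : ∀ r, ∫ d, f d r = cut (mix w φ) r := fun r => by
    rw [hf]
    by_cases hr : 0 < r ∧ r < 2
    · simp [cut, hr, mix]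
    · simp [cut, hr]
  have e : cfc (cut (mix w φ)) R = ∫ d, w d • opA R φ d := by
    rw [← funext hint, cfc_integral f (fun d => ‖w d‖ * C) R hfc.continuousOn
      (Eventually.of_forall hb) hw1.hasFiniteIntegral hm.R_sa]
    exact integral_congr_ae (Eventually.of_forall hop)
  have hi : Integrable fun d => w d • opA R φ d :=
    (integrable_cfc f (fun d => ‖w d‖ * C) R hfc.continuousOn (Eventually.of_forall hb)
      hw1.hasFiniteIntegral hm.R_sa).congr (Eventually.of_forall hop)
  rw [e, ContinuousLinearMap.integral_apply hi,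
    ← integral_inner (hi.apply_continuousLinearMap v) u]
  refine integral_congr_ae (Eventually.of_forall fun d => ?_)
  dsimp only
  rw [smul_apply, ← Complex.coe_smul, inner_smul_right]

/-- `φ (d + log Δ)` is an average of the modular group. -/
theorem integral_U_eq (hm : Modular M η R J U) (hη : ‖η‖ = 1) {φ : ℝ → ℝ} (hφ : ContDiff ℝ 2 φ)
    (hc : HasCompactSupport φ) (d : ℝ) (v : H) :
    ∫ w, (𝓕 (fun l => (φ l : ℂ)) w *
        Complex.exp (((2 * Real.pi * w * d : ℝ) : ℂ) * Complex.I)) • U (2 * Real.pi * w) v =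
      opA R φ d v := by
  have hgφ : ContDiff ℝ 2 fun l => (φ l : ℂ) := Complex.ofRealCLM.contDiff.comp hφ
  obtain ⟨hkc, hk, -, hkb⟩ := fourier_kernel hgφ (hc.comp_left Complex.ofReal_zero)
  obtain ⟨k, hkdef⟩ : ∃ k : ℝ → ℂ, k = fun w => 𝓕 (fun l => (φ l : ℂ)) w *
      Complex.exp (((2 * Real.pi * w * d : ℝ) : ℂ) * Complex.I) := ⟨_, rfl⟩
  have hc1 : Continuous k := hkdef ▸ hkc.mul (by fun_prop)
  have hk1 : Integrable k := by
    refine hk.norm.mono' hc1.aestronglyMeasurable (Eventually.of_forall fun w => ?_)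
    rw [hkdef, norm_mul, Complex.norm_exp_ofReal_mul_I, mul_one]
  have hb : Continuous fun l => φ (d + l) := hφ.continuous.comp (by fun_prop)
  have hk2 : ∀ l : ℝ, ∫ w, k w * Complex.exp (((2 * Real.pi * w * l : ℝ) : ℂ) * Complex.I)
      = (φ (d + l) : ℝ) := fun l => by
    rw [← hkb (d + l), hkdef]
    refine integral_congr_ae (Eventually.of_forall fun w => ?_)
    show _ * _ * _ = _ * _
    rw [mul_assoc, ← Complex.exp_add]
    congr 2
    push_cast
    ring
  obtain ⟨x, hx⟩ : ∃ x : H →L[ℂ] H, x = (innerSL ℂ η).smulRight v := ⟨_, rfl⟩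
  have hxη : x η = v := by
    simp [hx, inner_self_eq_norm_sq_to_K, hη]
  have e := smear_eta hm x hc1 hk1 hb (hcs_translate hc d) hk2
  rw [smear_apply, hxη] at e
  rw [opA, ← e]
  refine integral_congr_ae (Eventually.of_forall fun w => ?_)
  simp only [orb, hm.U_xi, hxη, hkdef]

end Vale.Agent.P096.Three.Core.Semi
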