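import Vale.Agent.P096.Three.Core.Basic
import Vale.Agent.P096.Three.Core.Semi.Kms

/-!
P096, cores: the functions of the generator of the flow of the crossed product as pointwise
operators; what commutes with the flow commutes with them.
-/

open scoped InnerProductSpace FourierTransform
open MeasureTheory Filter Topology Set

namespace Vale.Agent.P096.Three.Core.Semi

open Vale.Agent.P132.Tomita Vale.Agent.P132.TypeThree Vale.Agent.P104.Continuous

variable {H : Type} [NormedAddCommGroup H] [InnerProductSpace ℂ H] [CompleteSpace H]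

/-- A test function of the momentum: smooth, compactly supported, zero on the positive half
line. -/
structure Test where
  /-- The function. -/
  f : ℝ → ℝ
  smooth : ContDiff ℝ 2 f
  compact : HasCompactSupport f
  neg : ∀ d, 0 < d → f d = 0

theorem Test.continuous (φ : Test) : Continuous φ.f := φ.smooth.continuous

theorem Test.exists_bound (φ : Test) : ∃ C : ℝ, ∀ l, ‖φ.f l‖ ≤ C :=
  φ.continuous.bounded_above_of_compact_support φ.compact

/-- A bound of a test function. -/
noncomputable def Test.bound (φ : Test) : ℝ := φ.exists_bound.choose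

theorem Test.abs_le (φ : Test) (l : ℝ) : |φ.f l| ≤ φ.bound := φ.exists_bound.choose_spec l

theorem Test.bound_nonneg (φ : Test) : 0 ≤ φ.bound := (abs_nonneg _).trans (φ.abs_le 0)

omit [CompleteSpace H] in
theorem memLp_point {A : ℝ → H →L[ℂ] H} (hA : Continuous A) {C : ℝ} (hC : ∀ d, ‖A d‖ ≤ C)
    (ψ : CoreH H) : MemLp (fun d => A d (ψ d)) 2 volume :=
  MemLp.of_le_mul (c := C) (Lp.memLp ψ)
    ((isBoundedBilinearMap_apply (𝕜 := ℂ) (E := H) (F := H)).continuous.comp_aestronglyMeasurable
      (hA.aestronglyMeasurable.prodMk (Lp.aestronglyMeasurable ψ)))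
    (Eventually.of_forall fun d => (A d).le_of_opNorm_le (hC d) _)

/-- An operator acting pointwise by a bounded continuous family. -/
noncomputable def pointOp (A : ℝ → H →L[ℂ] H) (hA : Continuous A) (C : ℝ)
    (hC : ∀ d, ‖A d‖ ≤ C) : CoreH H →L[ℂ] CoreH H :=
  LinearMap.mkContinuous
    { toFun := fun ψ => (memLp_point hA hC ψ).toLp _
      map_add' := fun ψ χ => by
        rw [← MemLp.toLp_add]
        refine MemLp.toLp_congr _ _ ?_
        filter_upwards [Lp.coeFn_add ψ χ] with d hd
        show A d ((ψ + χ : CoreH H) d) = A d (ψ d) + A d (χ d)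
        rw [hd, Pi.add_apply, map_add]
      map_smul' := fun c ψ => by
        rw [RingHom.id_apply, ← MemLp.toLp_const_smul]
        refine MemLp.toLp_congr _ _ ?_
        filter_upwards [Lp.coeFn_smul c ψ] with d hd
        show A d ((c • ψ : CoreH H) d) = c • A d (ψ d)
        rw [hd, Pi.smul_apply, map_smul] } C fun ψ => by
    refine Lp.norm_le_mul_norm_of_ae_le_mul ?_
    filter_upwards [(memLp_point hA hC ψ).coeFn_toLp] with d hd
    exact (congrArg norm hd).trans_le ((A d).le_of_opNorm_le (hC d) _)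

omit [CompleteSpace H] in
theorem pointOp_apply {A : ℝ → H →L[ℂ] H} (hA : Continuous A) {C : ℝ} (hC : ∀ d, ‖A d‖ ≤ C)
    (ψ : CoreH H) : ⇑(pointOp A hA C hC ψ) =ᵐ[volume] fun d => A d (ψ d) :=
  (memLp_point hA hC ψ).coeFn_toLp

/-- `φ (d + log Δ)` on the space of the cores. -/
noncomputable def opG (R : H →L[ℂ] H) (φ : Test) : CoreH H →L[ℂ] CoreH H :=
  pointOp (opA R φ.f) (continuous_opA φ.continuous φ.compact) φ.bound
    (norm_opA_le φ.bound_nonneg φ.abs_le)

theorem opG_apply (R : H →L[ℂ] H) (φ : Test) (ψ : CoreH H) :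
    ⇑(opG R φ ψ) =ᵐ[volume] fun d => opA R φ.f d (ψ d) :=
  pointOp_apply _ _ ψ

theorem star_opG (R : H →L[ℂ] H) (φ : Test) : star (opG R φ) = opG R φ := by
  rw [ContinuousLinearMap.star_eq_adjoint]
  refine ((ContinuousLinearMap.eq_adjoint_iff _ _).2 fun a b => ?_).symm
  rw [L2.inner_def, L2.inner_def]
  refine integral_congr_ae ?_
  filter_upwards [opG_apply R φ a, opG_apply R φ b] with d h1 h2
  rw [h1, h2, inner_proj (opA_selfAdjoint _ _)]

variable {M : VonNeumannAlgebra H} {η : H} {R : H →L[ℂ] H} {J : H ≃ₗᵢ⋆[ℂ] H}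
  {U : ℝ → (H →L[ℂ] H)}

theorem inner_opG (hm : Modular M η R J U) (hη : ‖η‖ = 1) (φ : Test) (χ ψ : CoreH H) :
    ⟪χ, opG R φ ψ⟫_ℂ = ∫ w, 𝓕 (fun l => (φ.f l : ℂ)) w *
      ⟪χ, coreU U (2 * Real.pi * w) ψ⟫_ℂ := by
  have hgφ : ContDiff ℝ 2 fun l => (φ.f l : ℂ) := Complex.ofRealCLM.contDiff.comp φ.smooth
  obtain ⟨hkc, hk, -, -⟩ := fourier_kernel hgφ (φ.compact.comp_left Complex.ofReal_zero)
  obtain ⟨k, hkdef⟩ : ∃ k : ℝ → ℂ, k = 𝓕 (fun l => (φ.f l : ℂ)) := ⟨_, rfl⟩
  rw [← hkdef] at hkc hk ⊢
  obtain ⟨F, hF⟩ : ∃ F : ℝ → ℝ → ℂ, F = fun w d =>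
      (k w * Complex.exp (((2 * Real.pi * w * d : ℝ) : ℂ) * Complex.I)) *
        ⟪χ d, U (2 * Real.pi * w) (ψ d)⟫_ℂ := ⟨_, rfl⟩
  have hint : Integrable (Function.uncurry F) (volume.prod volume) := by
    have h2 : Integrable fun d => ‖χ d‖ * ‖ψ d‖ :=
      (Lp.memLp χ).norm.integrable_mul (Lp.memLp ψ).norm
    refine (hk.norm.mul_prod h2).mono' ?_ (Eventually.of_forall fun p => ?_)
    · have hU : StronglyMeasurable fun p : ℝ × ℝ => U (2 * Real.pi * p.1) (ψ p.2) :=
        stronglyMeasurable_uncurry_of_continuous_of_stronglyMeasurable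
          (u := fun w d => U (2 * Real.pi * w) (ψ d))
          (fun d => (hm.U_cont (ψ d)).comp (by fun_prop))
          (fun w => (U _).continuous.comp_stronglyMeasurable (Lp.stronglyMeasurable ψ))
      have hχ : StronglyMeasurable fun p : ℝ × ℝ => χ p.2 :=
        (Lp.stronglyMeasurable χ).comp_measurable measurable_snd
      rw [hF]
      exact ((show Continuous fun p : ℝ × ℝ => k p.1 *
          Complex.exp (((2 * Real.pi * p.1 * p.2 : ℝ) : ℂ) * Complex.I) by
        fun_prop).stronglyMeasurable.mul (hχ.inner (𝕜 := ℂ) hU)).aestronglyMeasurable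
    · rw [hF]
      simp only [Function.uncurry, norm_mul, Complex.norm_exp_ofReal_mul_I, mul_one]
      refine mul_le_mul_of_nonneg_left ((norm_inner_le_norm _ _).trans_eq ?_) (norm_nonneg _)
      rw [VP132.norm_U_apply hm]
  calc ⟪χ, opG R φ ψ⟫_ℂ = ∫ d, ∫ w, F w d := by
        rw [L2.inner_def]
        refine integral_congr_ae ?_
        filter_upwards [opG_apply R φ ψ] with d hd
        have hi : Integrable fun w => (k w *
            Complex.exp (((2 * Real.pi * w * d : ℝ) : ℂ) * Complex.I)) •
              U (2 * Real.pi * w) (ψ d) := by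
          refine (hk.norm.mul_const ‖ψ d‖).mono'
            ((hkc.mul (by fun_prop)).smul ((hm.U_cont (ψ d)).comp (by fun_prop))).aestronglyMeasurable
            (Eventually.of_forall fun w => ?_)
          rw [norm_smul, norm_mul, Complex.norm_exp_ofReal_mul_I, mul_one, VP132.norm_U_apply hm]
        rw [hd, ← integral_U_eq hm hη φ.smooth φ.compact d (ψ d), ← hkdef, ← integral_inner hi,
          hF]
        simp only [inner_smul_right]
    _ = ∫ w, ∫ d, F w d := (integral_integral_swap hint).symm
    _ = _ := by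
        refine integral_congr_ae (Eventually.of_forall fun w => ?_)
        dsimp only
        rw [L2.inner_def, ← integral_const_mul, hF]
        refine integral_congr_ae ?_
        filter_upwards [const_apply (U (2 * Real.pi * w)) (phase (2 * Real.pi * w) ψ),
          phase_apply (2 * Real.pi * w) ψ] with d h1 h2
        rw [coreU, mul_apply_eq_comp, h1, h2, map_smul, inner_smul_right, mul_assoc]

/-- What commutes with the flow commutes with the functions of its generator. -/
theorem opG_commute (hm : Modular M η R J U) (hη : ‖η‖ = 1) (φ : Test)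
    {X : CoreH H →L[ℂ] CoreH H} (hX : ∀ t, X * coreU U t = coreU U t * X) :
    X * opG R φ = opG R φ * X := by
  refine ContinuousLinearMap.ext fun ψ => ext_inner_left ℂ fun χ => ?_
  rw [mul_apply_eq_comp, mul_apply_eq_comp, ← ContinuousLinearMap.adjoint_inner_left,
    inner_opG hm hη, inner_opG hm hη]
  refine integral_congr_ae (Eventually.of_forall fun w => ?_)
  dsimp only
  rw [ContinuousLinearMap.adjoint_inner_left, ← mul_apply_eq_comp, hX, mul_apply_eq_comp]

theorem opG_mem_commutant (hm : Modular M η R J U) (hη : ‖η‖ = 1) (φ : Test) :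
    opG R φ ∈ (core M U).commutant :=
  VonNeumannAlgebra.mem_commutant_iff.2 fun X hX =>
    opG_commute hm hη φ ((mem_core hm.U_star M X).1 hX).2

end Vale.Agent.P096.Three.Core.Semi
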