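import Vale.Agent.P096.Three.Core.TraceVec
import Vale.Agent.P096.Three.Core.Semi.Ops

/-!
P096, cores: the vector state of `traceVec η` is a trace on the half line corner of the core.

The commutant of the core contains the products `φ(d + log Δ) y ψ(d + log Δ)` for `y` in the
commutant and test functions on the negative half line; by the condition of KMS such a product and
its adjoint send the trace vector to vectors of the same length, and they reach the whole corner.
-/

open scoped InnerProductSpace ComplexConjugate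
open MeasureTheory Filter Topology Set
open TopologicalSpace (SeparableSpace)

namespace Vale.Agent.P096.Three.Core.Semi

open Vale.Agent.P132.Tomita Vale.Agent.P132.TypeThree Vale.Agent.P104.Continuous

variable {H : Type} [NormedAddCommGroup H] [InnerProductSpace ℂ H] [CompleteSpace H]
variable {M : VonNeumannAlgebra H} {η : H} {R : H →L[ℂ] H} {J : H ≃ₗᵢ⋆[ℂ] H}
  {U : ℝ → (H →L[ℂ] H)}

/-! ### The generators -/

theorem halfFun_mul (ψ : Test) (d : ℝ) :
    halfFun d * (ψ.f d : ℂ) = ((Real.exp (d / 2) * ψ.f d : ℝ) : ℂ) := by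
  by_cases hd : d ∈ Iic (0 : ℝ)
  · simp [halfFun, hd]
  · simp [halfFun, hd, ψ.neg d (not_le.1 hd)]

theorem opG_traceVec (hm : Modular M η R J U) (ψ : Test) :
    ⇑(opG R ψ (traceVec η)) =ᵐ[volume]
      fun d => ((Real.exp (d / 2) * ψ.f d : ℝ) : ℂ) • η := by
  filter_upwards [opG_apply R ψ (traceVec η), traceVec_apply η] with d h1 h2
  rw [h1, h2, map_smul, opA_eta hm ψ.continuous ψ.compact, ← Complex.coe_smul, smul_smul,
    halfFun_mul]

/-- A generator. -/
noncomputable def gen (R : H →L[ℂ] H) (φ : Test) (y : H →L[ℂ] H) (ψ : Test) :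
    CoreH H →L[ℂ] CoreH H :=
  opG R φ * const y * opG R ψ

/-- The span of the generators. -/
noncomputable def genSpan (M : VonNeumannAlgebra H) (R : H →L[ℂ] H) :
    Submodule ℂ (CoreH H →L[ℂ] CoreH H) :=
  Submodule.span ℂ {Z | ∃ φ, ∃ y ∈ M.commutant, ∃ ψ, Z = gen R φ y ψ}

theorem star_gen (φ : Test) (y : H →L[ℂ] H) (ψ : Test) :
    star (gen R φ y ψ) = gen R ψ (star y) φ := by
  simp only [gen, star_mul, star_opG, star_const, mul_assoc]

theorem star_mem_genSpan {Z : CoreH H →L[ℂ] CoreH H} (hZ : Z ∈ genSpan M R) :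
    star Z ∈ genSpan M R := by
  induction hZ using Submodule.span_induction with
  | mem z hz =>
    obtain ⟨φ, y, hy, ψ, rfl⟩ := hz
    exact Submodule.subset_span ⟨ψ, star y, star_mem hy, φ, star_gen φ y ψ⟩
  | zero => rw [star_zero]; exact zero_mem _
  | add a b _ _ ha hb => rw [star_add]; exact add_mem ha hb
  | smul c a _ ha => rw [star_smul]; exact Submodule.smul_mem _ _ ha

theorem genSpan_mem_commutant (hm : Modular M η R J U) (hη : ‖η‖ = 1)
    {Z : CoreH H →L[ℂ] CoreH H} (hZ : Z ∈ genSpan M R) : Z ∈ (core M U).commutant := by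
  induction hZ using Submodule.span_induction with
  | mem z hz =>
    obtain ⟨φ, y, hy, ψ, rfl⟩ := hz
    refine mul_mem (mul_mem (opG_mem_commutant hm hη φ) ?_) (opG_mem_commutant hm hη ψ)
    exact VonNeumannAlgebra.mem_commutant_iff.2 fun X hX => ((mem_core hm.U_star M X).1 hX).1 y hy
  | zero => exact zero_mem _
  | add a b _ _ ha hb => exact add_mem ha hb
  | smul c a _ ha => exact smul_mem_vn c ha

/-! ### The inner products -/

theorem gen_traceVec (hm : Modular M η R J U) (φ : Test) (y : H →L[ℂ] H) (ψ : Test) :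
    ⇑(gen R φ y ψ (traceVec η)) =ᵐ[volume]
      fun d => ((Real.exp (d / 2) * ψ.f d : ℝ) : ℂ) • opA R φ.f d (y η) := by
  rw [gen, mul_apply_eq_comp, mul_apply_eq_comp]
  filter_upwards [opG_apply R φ (const y (opG R ψ (traceVec η))),
    const_apply y (opG R ψ (traceVec η)), opG_traceVec hm ψ] with d h1 h2 h3
  rw [h1, h2, h3, map_smul, map_smul]

theorem inner_gen (hm : Modular M η R J U) (φ₁ φ₂ ψ₁ ψ₂ : Test) (y₁ y₂ : H →L[ℂ] H) :
    ⟪gen R φ₁ y₁ ψ₁ (traceVec η), gen R φ₂ y₂ ψ₂ (traceVec η)⟫_ℂ =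
      ⟪y₁ η, cfc (Vale.Agent.P132.TypeThree.cut (mix (fun d => Real.exp d * (ψ₁.f d * ψ₂.f d))
        (fun l => φ₁.f l * φ₂.f l))) R (y₂ η)⟫_ℂ := by
  rw [← inner_cfc_mix hm (w := fun d => Real.exp d * (ψ₁.f d * ψ₂.f d))
      (φ := fun l => φ₁.f l * φ₂.f l)
      (Real.continuous_exp.mul (ψ₁.continuous.mul ψ₂.continuous))
      (HasCompactSupport.mul_left ψ₁.compact.mul_right)
      (φ₁.continuous.mul φ₂.continuous) φ₁.compact.mul_right, L2.inner_def]
  refine integral_congr_ae ?_
  filter_upwards [gen_traceVec hm φ₁ y₁ ψ₁, gen_traceVec hm φ₂ y₂ ψ₂] with d h1 h2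
  rw [h1, h2, inner_smul_left, inner_smul_right, inner_proj (opA_selfAdjoint _ _), ← apply_mul,
    opA_mul φ₁.continuous φ₁.compact φ₂.continuous φ₂.compact, Complex.conj_ofReal, ← mul_assoc]
  congr 1
  rw [← Complex.ofReal_mul]
  congr 1
  rw [show Real.exp d = Real.exp (d / 2) * Real.exp (d / 2) by rw [← Real.exp_add]; ring_nf]
  ring

/-- A generator and its adjoint have the same inner products at the trace vector. -/
theorem inner_gen_star (hm : Modular M η R J U) (φ₁ φ₂ ψ₁ ψ₂ : Test) {y₁ y₂ : H →L[ℂ] H}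
    (h₁ : y₁ ∈ M.commutant) (h₂ : y₂ ∈ M.commutant) :
    ⟪gen R φ₁ y₁ ψ₁ (traceVec η), gen R φ₂ y₂ ψ₂ (traceVec η)⟫_ℂ =
      ⟪star (gen R φ₂ y₂ ψ₂) (traceVec η), star (gen R φ₁ y₁ ψ₁) (traceVec η)⟫_ℂ := by
  have hw : HasCompactSupport fun d => Real.exp d * (φ₂.f d * φ₁.f d) :=
    HasCompactSupport.mul_left φ₂.compact.mul_right
  have hφ : HasCompactSupport fun l => ψ₂.f l * ψ₁.f l := ψ₂.compact.mul_right
  have hwc : Continuous fun d => Real.exp d * (φ₂.f d * φ₁.f d) :=
    Real.continuous_exp.mul (φ₂.continuous.mul φ₁.continuous)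
  have hφc : Continuous fun l => ψ₂.f l * ψ₁.f l := ψ₂.continuous.mul ψ₁.continuous
  rw [star_gen, star_gen, inner_gen hm, inner_gen hm,
    kms_cut hm h₁ h₂ (continuous_mix hwc hw hφc hφ) (hasCompactSupport_mix hw hφ)]
  congr 3
  funext r
  congr 1
  funext l
  unfold mix
  rw [← integral_add_right_eq_self (fun d => Real.exp d * (φ₂.f d * φ₁.f d) *
    (ψ₂.f (d + -l) * ψ₁.f (d + -l))) l, ← integral_mul_const]
  refine integral_congr_ae (Eventually.of_forall fun d => ?_)
  dsimp only
  rw [add_neg_cancel_right, Real.exp_add, Real.exp_neg]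
  field_simp

theorem inner_genSpan_star (hm : Modular M η R J U) {Z W : CoreH H →L[ℂ] CoreH H}
    (hZ : Z ∈ genSpan M R) (hW : W ∈ genSpan M R) :
    ⟪Z (traceVec η), W (traceVec η)⟫_ℂ =
      ⟪star W (traceVec η), star Z (traceVec η)⟫_ℂ := by
  induction hZ, hW using Submodule.span_induction₂ with
  | mem_mem a b ha hb =>
    obtain ⟨φ₁, y₁, h₁, ψ₁, rfl⟩ := ha
    obtain ⟨φ₂, y₂, h₂, ψ₂, rfl⟩ := hb
    exact inner_gen_star hm φ₁ φ₂ ψ₁ ψ₂ h₁ h₂
  | zero_left => simp
  | zero_right => simp
  | add_left a b c _ _ _ h h' =>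
    simp only [star_add, add_apply, inner_add_left, inner_add_right, h, h']
  | add_right a b c _ _ _ h h' =>
    simp only [star_add, add_apply, inner_add_left, inner_add_right, h, h']
  | smul_left r a b _ _ h =>
    simp only [star_smul, smul_apply, inner_smul_left, inner_smul_right, h, Complex.star_def]
  | smul_right r a b _ _ h =>
    simp only [star_smul, smul_apply, inner_smul_left, inner_smul_right, h, Complex.star_def,
      Complex.conj_conj]

/-! ### The generators reach the half line -/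

/-- The vectors `ψ(d) exp (d/2) y η`. -/
noncomputable def halfSpan (M : VonNeumannAlgebra H) (R : H →L[ℂ] H) (η : H) :
    Submodule ℂ (CoreH H) :=
  Submodule.span ℂ {v | ∃ y ∈ M.commutant, ∃ ψ : Test, v = const y (opG R ψ (traceVec η))}

theorem conj_halfFun (d : ℝ) : conj (halfFun d) = halfFun d := by
  by_cases hd : d ∈ Iic (0 : ℝ)
  · rw [halfFun, indicator_of_mem hd, Complex.conj_ofReal]
  · simp [halfFun, hd]

theorem halfLine_selfAdjoint : star (halfLine (H := H)) = halfLine := by
  rw [halfLine, star_mulFn]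
  congr 1
  funext d
  by_cases hd : d ∈ Iic (0 : ℝ) <;> simp [hd]

theorem halfLine_mem_halfSpan [SeparableSpace H] (hm : Modular M η R J U)
    (hη : Dense {v : H | ∃ y ∈ M.commutant, y η = v}) (v : CoreH H) :
    halfLine v ∈ (halfSpan M R η).topologicalClosure := by
  rw [← Submodule.orthogonal_orthogonal_eq_closure, Submodule.mem_orthogonal]
  intro F hF
  rw [Submodule.mem_orthogonal] at hF
  suffices h : halfLine F = 0 by
    rw [← halfLine_selfAdjoint, ContinuousLinearMap.star_eq_adjoint,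
      ContinuousLinearMap.adjoint_inner_right, h, inner_zero_left]
  have hzero : ∀ y ∈ M.commutant, ∀ᵐ d : ℝ, d ∈ Iio (0 : ℝ) → halfFun d * ⟪y η, F d⟫_ℂ = 0 := by
    intro y hy
    have hi : Integrable fun d => halfFun d * ⟪y η, F d⟫_ℂ := by
      refine (L2.integrable_inner (const y (traceVec η)) F).congr ?_
      filter_upwards [const_apply y (traceVec η), traceVec_apply η] with d h1 h2
      rw [h1, h2, map_smul, inner_smul_left, conj_halfFun]
    refine isOpen_Iio.ae_eq_zero_of_integral_contDiff_smul_eq_zero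
      (hi.locallyIntegrable.locallyIntegrableOn _) fun g hg hgc hgs => ?_
    obtain ⟨ψ, hψ⟩ : ∃ ψ : Test, ψ.f = g := ⟨⟨g, hg.of_le (WithTop.coe_le_coe.2 le_top), hgc,
      fun d hd => image_eq_zero_of_notMem_tsupport fun h => lt_asymm hd (hgs h)⟩, rfl⟩
    rw [← hF _ (Submodule.subset_span ⟨y, hy, ψ, rfl⟩), L2.inner_def]
    refine integral_congr_ae ?_
    filter_upwards [const_apply y (opG R ψ (traceVec η)), opG_traceVec hm ψ] with d h1 h2
    rw [h1, h2, map_smul, inner_smul_left, Complex.conj_ofReal, ← halfFun_mul, hψ,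
      Complex.real_smul]
    ring
  obtain ⟨c, hc, hcs, hcd⟩ := (TopologicalSpace.IsSeparable.of_separableSpace
    {v : H | ∃ y ∈ M.commutant, y η = v}).exists_countable_dense_subset
  have hall : ∀ᵐ d : ℝ, ∀ u ∈ c, d ∈ Iio (0 : ℝ) → halfFun d * ⟪u, F d⟫_ℂ = 0 :=
    (ae_ball_iff hcs).2 fun u hu => by
      obtain ⟨y, hy, rfl⟩ := hc hu
      exact hzero y hy
  refine Lp.ext ?_
  filter_upwards [hall, halfLine_apply F, Lp.coeFn_zero H 2 (volume : Measure ℝ),
    (measure_eq_zero_iff_ae_notMem.1 (measure_singleton (0 : ℝ)))] with d hd h1 h0 hd0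
  rw [h1, h0, Pi.zero_apply]
  by_cases hd1 : d ∈ Iic (0 : ℝ)
  swap; · rw [indicator_of_notMem hd1, zero_smul]
  have hneg : d ∈ Iio (0 : ℝ) := lt_of_le_of_ne hd1 hd0
  have hk : halfFun d ≠ 0 := by
    rw [halfFun, indicator_of_mem hd1]
    exact Complex.ofReal_ne_zero.2 (Real.exp_pos _).ne'
  have hdense : Dense c := Dense.of_closure <| hη.mono (hcd.trans Subset.rfl)
  have h0 : F d = 0 := by
    refine hdense.eq_zero_of_inner_left (𝕜 := ℂ) fun u hu => ?_
    rw [← inner_conj_symm, (mul_eq_zero.1 (hd u hu hneg)).resolve_left hk, map_zero]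
  rw [h0, smul_zero]

/-- A cutoff that tends to the half line. -/
noncomputable def cutoff (n : ℕ) : Test where
  f d := Real.smoothTransition (-((n : ℝ) * d)) * Real.smoothTransition (d + n + 1)
  smooth := (Real.smoothTransition.contDiff.comp (by fun_prop)).mul
    (Real.smoothTransition.contDiff.comp (by fun_prop))
  compact := HasCompactSupport.intro (isCompact_Icc (a := -((n : ℝ) + 1)) (b := 0)) fun d hd => by
    rcases lt_or_ge 0 d with h | h
    · rw [Real.smoothTransition.zero_of_nonpos (by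
        have := mul_nonneg n.cast_nonneg h.le; linarith), zero_mul]
    · have : d < -((n : ℝ) + 1) := by
        by_contra h'
        exact hd ⟨not_lt.1 h', h⟩
      rw [Real.smoothTransition.zero_of_nonpos (x := d + n + 1) (by linarith), mul_zero]
  neg d hd := by
    rw [Real.smoothTransition.zero_of_nonpos (by
      have := mul_nonneg n.cast_nonneg hd.le; linarith), zero_mul]

theorem tendsto_cutoff (hm : Modular M η R J U) :
    Tendsto (fun n => opG R (cutoff n) (traceVec η)) atTop (𝓝 (traceVec η)) := by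
  rw [tendsto_iff_norm_sub_tendsto_zero]
  have hn : ∀ n, ‖opG R (cutoff n) (traceVec η) - traceVec η‖ ^ 2 =
      ∫ d, ‖halfFun d * (((cutoff n).f d : ℂ) - 1)‖ ^ 2 * ‖η‖ ^ 2 := by
    intro n
    rw [norm_sq_eq_integral]
    refine integral_congr_ae ?_
    filter_upwards [Lp.coeFn_sub (opG R (cutoff n) (traceVec η)) (traceVec η),
      opG_traceVec hm (cutoff n), traceVec_apply η] with d h h1 h2
    rw [h, Pi.sub_apply, h1, h2, ← halfFun_mul, ← sub_smul, norm_smul, mul_pow, mul_sub, mul_one]
  have hb : Integrable fun d => ‖halfFun d‖ ^ 2 * ‖η‖ ^ 2 :=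
    ((memLp_two_iff_integrable_sq_norm measurable_halfFun.aestronglyMeasurable).1
      memLp_halfFun).mul_const _
  have hlim := tendsto_integral_of_dominated_convergence
    (F := fun n d => ‖halfFun d * (((cutoff n).f d : ℂ) - 1)‖ ^ 2 * ‖η‖ ^ 2) (f := fun _ => 0)
    (fun d => ‖halfFun d‖ ^ 2 * ‖η‖ ^ 2)
    (fun n => ((((measurable_halfFun.mul
      ((Complex.measurable_ofReal.comp (cutoff n).continuous.measurable).sub_const 1)).norm).pow_const
        2).mul_const _).aestronglyMeasurable) hb
    (fun n => Eventually.of_forall fun d => ?_) ?_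
  · simp only [integral_zero, ← hn] at hlim
    simpa [Real.sqrt_sq (norm_nonneg _)] using hlim.sqrt
  · rw [Real.norm_of_nonneg (by positivity), norm_mul]
    gcongr
    refine mul_le_of_le_one_right (norm_nonneg _) ?_
    rw [← Complex.ofReal_one, ← Complex.ofReal_sub, Complex.norm_real, Real.norm_eq_abs, abs_le]
    have a0 : 0 ≤ (cutoff n).f d :=
      mul_nonneg (Real.smoothTransition.nonneg _) (Real.smoothTransition.nonneg _)
    have a1 : (cutoff n).f d ≤ 1 := mul_le_one₀ (Real.smoothTransition.le_one _)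
      (Real.smoothTransition.nonneg _) (Real.smoothTransition.le_one _)
    constructor <;> linarith
  · filter_upwards [measure_eq_zero_iff_ae_notMem.1 (measure_singleton (0 : ℝ))] with d hd0
    refine tendsto_const_nhds.congr' ?_
    rcases lt_or_gt_of_ne hd0 with h | h
    · filter_upwards [eventually_ge_atTop ⌈max (1 / -d) (-d)⌉₊] with n hn'
      have h3 := Nat.ceil_le.1 hn'
      rw [max_le_iff, div_le_iff₀ (neg_pos.2 h)] at h3
      have e1 : Real.smoothTransition (-((n : ℝ) * d)) = 1 :=
        Real.smoothTransition.one_of_one_le (by linarith [h3.1])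
      have e2 : Real.smoothTransition (d + n + 1) = 1 :=
        Real.smoothTransition.one_of_one_le (by linarith [h3.2])
      simp [cutoff, e1, e2]
    · refine Eventually.of_forall fun n => ?_
      simp [halfFun, not_le.2 h]

/-- The corner moves the trace vector into what the generators reach. -/
theorem apply_mem_closure [SeparableSpace H] (hm : Modular M η R J U) (hη1 : ‖η‖ = 1)
    (hη : Dense {v : H | ∃ y ∈ M.commutant, y η = v}) {X : CoreH H →L[ℂ] CoreH H}
    (hX : X ∈ core M U) (hl : halfLine * X = X) :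
    X (traceVec η) ∈ closure
      ((fun Z : CoreH H →L[ℂ] CoreH H => Z (traceVec η)) '' (genSpan M R)) := by
  set S : Submodule ℂ (CoreH H) := (genSpan M R).map
    (ContinuousLinearMap.apply ℂ (CoreH H) (traceVec η)).toLinearMap with hS
  have hSset : (S : Set (CoreH H))
      = (fun Z : CoreH H →L[ℂ] CoreH H => Z (traceVec η)) '' (genSpan M R) := rfl
  rw [← hSset]
  have hXv : X (traceVec η) ∈ closure (halfSpan M R η : Set (CoreH H)) := by
    rw [← Submodule.topologicalClosure_coe]
    have h := halfLine_mem_halfSpan (R := R) hm hη (X (traceVec η))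
    rwa [← mul_apply_eq_comp, hl] at h
  have hmap : ∀ n, opG R (cutoff n) (X (traceVec η)) ∈ closure (S : Set (CoreH H)) := by
    intro n
    refine map_mem_closure (opG R (cutoff n)).continuous hXv fun v hv => ?_
    have hle : halfSpan M R η ≤ S.comap (opG R (cutoff n)).toLinearMap := by
      refine Submodule.span_le.2 ?_
      rintro _ ⟨y, hy, ψ, rfl⟩
      exact ⟨gen R (cutoff n) y ψ, Submodule.subset_span ⟨_, y, hy, ψ, rfl⟩, rfl⟩
    exact hle hv
  refine isClosed_closure.mem_of_tendsto ((X.continuous.tendsto _).comp (tendsto_cutoff hm))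
    (Eventually.of_forall fun n => ?_)
  have e : opG R (cutoff n) (X (traceVec η)) = X (opG R (cutoff n) (traceVec η)) :=
    (DFunLike.congr_fun (opG_commute hm hη1 (cutoff n) ((mem_core hm.U_star M X).1 hX).2) _).symm
  show X (opG R (cutoff n) (traceVec η)) ∈ _
  rw [← e]
  exact hmap n

/-! ### The trace -/

theorem norm_apply_le [SeparableSpace H] (hm : Modular M η R J U) (hη1 : ‖η‖ = 1)
    (hη : Dense {v : H | ∃ y ∈ M.commutant, y η = v}) {X : CoreH H →L[ℂ] CoreH H}
    (hX : X ∈ core M U) (hl : halfLine * X = X) :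
    ‖X (traceVec η)‖ ≤ ‖star X (traceVec η)‖ := by
  rw [← sq_le_sq₀ (norm_nonneg _) (norm_nonneg _)]
  refine le_of_forall_pos_le_add fun ε hε => ?_
  obtain ⟨_, ⟨Z, hZ, rfl⟩, hd⟩ := Metric.mem_closure_iff.1 (apply_mem_closure hm hη1 hη hX hl)
    (Real.sqrt ε) (Real.sqrt_pos.2 hε)
  have hcomm : star Z * X = X * star Z := (VonNeumannAlgebra.mem_commutant_iff.1
    (genSpan_mem_commutant hm hη1 (star_mem_genSpan hZ)) X hX).symm
  have e1 : ‖star Z (traceVec η)‖ = ‖Z (traceVec η)‖ := by
    have h := inner_genSpan_star hm hZ hZ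
    rw [inner_self_eq_norm_sq_to_K, inner_self_eq_norm_sq_to_K] at h
    exact ((sq_eq_sq₀ (norm_nonneg _) (norm_nonneg _)).1
      (Complex.ofReal_injective (by simpa using h))).symm
  have e2 : (⟪star Z (traceVec η), star X (traceVec η)⟫_ℂ).re =
      (⟪Z (traceVec η), X (traceVec η)⟫_ℂ).re := by
    have h : ⟪Z (traceVec η), X (traceVec η)⟫_ℂ =
        ⟪star X (traceVec η), star Z (traceVec η)⟫_ℂ := by
      rw [ContinuousLinearMap.star_eq_adjoint, ContinuousLinearMap.adjoint_inner_left,
        ← mul_apply_eq_comp, ← hcomm, mul_apply_eq_comp, ContinuousLinearMap.star_eq_adjoint,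
        ContinuousLinearMap.adjoint_inner_right]
    rw [h, ← inner_conj_symm, Complex.conj_re]
  rw [dist_eq_norm, norm_sub_rev] at hd
  have hd2 : ‖Z (traceVec η) - X (traceVec η)‖ ^ 2 < ε := by
    have := pow_lt_pow_left₀ hd (norm_nonneg _) (n := 2) two_ne_zero
    rwa [Real.sq_sqrt hε.le] at this
  have h3 := norm_sub_sq (𝕜 := ℂ) (Z (traceVec η)) (X (traceVec η))
  have h4 := norm_sub_sq (𝕜 := ℂ) (star Z (traceVec η)) (star X (traceVec η))
  simp only [RCLike.re_to_complex, e1, e2] at h3 h4
  nlinarith [sq_nonneg ‖star Z (traceVec η) - star X (traceVec η)‖]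

/-- The vector state of the trace vector is a trace on the half line corner of the core. -/
theorem norm_apply_traceVec [SeparableSpace H] (hd : StdData M η R J U)
    {X : CoreH H →L[ℂ] CoreH H} (hX : X ∈ core M U) (hl : halfLine * X = X)
    (hr : X * halfLine = X) : ‖X (traceVec η)‖ = ‖star X (traceVec η)‖ := by
  have hη : Dense {v : H | ∃ y ∈ M.commutant, y η = v} := by
    have hJ : Function.Surjective J := fun v => ⟨J v, hd.mod.J_J v⟩
    refine (hJ.denseRange.dense_image J.continuous hd.std.2.1).mono ?_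
    rintro _ ⟨_, ⟨x, hx, rfl⟩, rfl⟩
    exact ⟨conjBy J x, hd.mod.conj_mem x hx, by rw [conjBy_apply, hd.mod.J_xi]⟩
  refine le_antisymm (norm_apply_le hd.mod hd.std.1 hη hX hl) ?_
  have hl' : halfLine * star X = star X := by
    rw [← halfLine_selfAdjoint, ← star_mul, hr]
  simpa using norm_apply_le hd.mod hd.std.1 hη (star_mem hX) hl'

end Vale.Agent.P096.Three.Core.Semi
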